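import Mathlib
import Vale.Agent.P313.NW.H126.Round

/-!
# Good offsets (block C)

The offsets of all stages are drawn one after the other; the numbers which are rounded with an
offset depend on the earlier offsets only.
-/

namespace Vale.Agent.P313.NW.H126

open Finset Vale.Agent.P313.NW.BP
open scoped Classical

/-- Union bound for dependent draws, one index. -/
theorem card_dep_one {m D : ℕ} (Bd : ℕ) (i : Fin m) (F : (Fin m → Fin D) → Fin D → Prop)
    (hloc : ∀ o o' : Fin m → Fin D, (∀ j < i, o j = o' j) → ∀ c, F o c ↔ F o' c)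
    (hcard : ∀ o, (univ.filter fun c => F o c).card ≤ Bd) :
    (univ.filter fun o : Fin m → Fin D => F o (o i)).card * D ≤ Bd * D ^ m := by
  have h1 : ((univ.filter fun o : Fin m → Fin D => F o (o i)) ×ˢ (univ : Finset (Fin D))).card ≤
      (univ.filter fun x : (Fin m → Fin D) × Fin D => F x.1 x.2).card := by
    apply Finset.card_le_card_of_injOn (fun x => (Function.update x.1 i x.2, x.1 i))
    · intro x hx
      rw [Finset.mem_coe, Finset.mem_product, Finset.mem_filter] at hx
      rw [Finset.mem_coe, Finset.mem_filter]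
      refine ⟨Finset.mem_univ _, ?_⟩
      refine (hloc x.1 _ (fun j hj => ?_) _).1 hx.1.2
      show x.1 j = Function.update x.1 i x.2 j
      rw [Function.update_of_ne hj.ne]
    · intro x _ y _ h
      rw [Prod.mk.injEq] at h
      have hd : x.2 = y.2 := by
        have := congrFun h.1 i
        simpa using this
      refine Prod.ext (funext fun j => ?_) hd
      by_cases hj : j = i
      · rw [hj]; exact h.2
      · have := congrFun h.1 j
        simpa [hj] using this
  rw [Finset.card_product, Finset.card_univ, Fintype.card_fin] at h1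
  refine h1.trans ?_
  have h2 : (univ.filter fun x : (Fin m → Fin D) × Fin D => F x.1 x.2).card =
      ∑ o : Fin m → Fin D, (univ.filter fun c => F o c).card := by
    rw [Finset.card_filter, Fintype.sum_prod_type]
    refine Finset.sum_congr rfl fun o _ => ?_
    rw [Finset.card_filter]
  rw [h2]
  calc _ ≤ ∑ _o : Fin m → Fin D, Bd := Finset.sum_le_sum fun o _ => hcard o
    _ = Bd * D ^ m := by
      rw [Finset.sum_const, Finset.card_univ, Fintype.card_fun, Fintype.card_fin,
        Fintype.card_fin, smul_eq_mul, mul_comm]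

/-- Union bound for dependent draws. -/
theorem card_dep {m D : ℕ} (Bd : ℕ) (F : Fin m → (Fin m → Fin D) → Fin D → Prop)
    (hloc : ∀ i, ∀ o o' : Fin m → Fin D, (∀ j < i, o j = o' j) → ∀ c, F i o c ↔ F i o' c)
    (hcard : ∀ i o, (univ.filter fun c => F i o c).card ≤ Bd) :
    (univ.filter fun o : Fin m → Fin D => ∃ i, F i o (o i)).card * D ≤ m * Bd * D ^ m := by
  have h1 : (univ.filter fun o : Fin m → Fin D => ∃ i, F i o (o i)) =
      (univ : Finset (Fin m)).biUnion fun i => univ.filter fun o : Fin m → Fin D => F i o (o i) := by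
    ext o
    simp
  calc _ ≤ (∑ i : Fin m, (univ.filter fun o : Fin m → Fin D => F i o (o i)).card) * D := by
        rw [h1]
        exact Nat.mul_le_mul_right _ Finset.card_biUnion_le
    _ = ∑ i : Fin m, (univ.filter fun o : Fin m → Fin D => F i o (o i)).card * D := by
        rw [Finset.sum_mul]
    _ ≤ ∑ _i : Fin m, Bd * D ^ m :=
        Finset.sum_le_sum fun i _ => card_dep_one Bd i _ (hloc i) (hcard i)
    _ = _ := by
        rw [Finset.sum_const, Finset.card_univ, Fintype.card_fin, smul_eq_mul, mul_assoc]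

variable {p : Par} {S : Sem} {cs : ℕ → Bool → ℕ}

/-! ### Dependence on the offsets -/

section congr

variable {d : SD} {o o' : ℕ → ℕ}

lemma st0_congr (h : ∀ i < 1, o i = o' i) : st0 p S d o = st0 p S d o' := by
  funext i v x
  unfold st0 fac0 P0
  rw [h 0 (by omega)]

lemma G0_congr (h : ∀ i < 2, o i = o' i) : G0 p S d o = G0 p S d o' := by
  funext v x
  unfold G0
  rw [h 1 (by omega), st0_congr fun i hi => h i (by omega)]

lemma Z1_congr (h : ∀ i < 2, o i = o' i) : Z1 p S d o = Z1 p S d o' := by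
  funext x
  unfold Z1 Ft
  rw [G0_congr h]

lemma Zst_congr (h : ∀ i < 3, o i = o' i) : Zst p S d o = Zst p S d o' := by
  funext x
  unfold Zst lossR
  rw [h 2 (by omega), Z1_congr fun i hi => h i (by omega)]

lemma Zs_congr (h : ∀ i < 3, o i = o' i) : Zs p S d o = Zs p S d o' := by
  funext x
  unfold Zs
  rw [Zst_congr h]

lemma st2_congr (h : ∀ i < 4, o i = o' i) : st2 p S d o = st2 p S d o' := by
  funext i v x
  unfold st2 fac2 P2
  rw [h 3 (by omega), Zs_congr fun i hi => h i (by omega)]

lemma G2_congr (h : ∀ i < 5, o i = o' i) : G2 p S d o = G2 p S d o' := by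
  funext v x
  unfold G2
  rw [h 4 (by omega), st2_congr fun i hi => h i (by omega)]

lemma Hm_congr (h : ∀ i < 5, o i = o' i) : Hm p S d o = Hm p S d o' := by
  have h1 : Lm p S d o = Lm p S d o' := by
    funext v x
    unfold Lm
    rw [Zs_congr fun i hi => h i (by omega)]
  funext v x
  unfold Hm
  rw [h1, G2_congr h]

lemma Xst_congr (h : ∀ i < 5, o i = o' i) : Xst p S d o = Xst p S d o' := by
  funext w w'
  unfold Xst Em
  rw [Hm_congr h, G2_congr h]

lemma Xc_congr (h : ∀ i < 6, o i = o' i) : Xc p S d o = Xc p S d o' := by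
  funext v x
  unfold Xc Xp
  rw [h 5 (by omega), Xst_congr fun i hi => h i (by omega)]

lemma next_congr (h : ∀ i < 6, o i = o' i) : next p S d o = next p S d o' := by
  have h1 : Phi p S d o = Phi p S d o' := by
    funext v x
    unfold Phi
    rw [Xc_congr h, Zs_congr fun i hi => h i (by omega)]
  unfold next
  rw [h1, Zs_congr fun i hi => h i (by omega), Zst_congr fun i hi => h i (by omega)]

end congr

/-- The canonical data depend on earlier offsets only. -/
lemma data_congr {o o' : ℕ → ℕ → ℕ} {s : ℕ} (h : ∀ s' < s, ∀ i < 6, o s' i = o' s' i) :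
    data p S cs o s = data p S cs o' s := by
  induction s with
  | zero => rfl
  | succ s ih =>
    unfold data
    rw [ih (fun s' hs' => h s' (by omega)), next_congr (h s (by omega))]

/-- Offsets as a function of stage and number. -/
def offs {m : ℕ} (o : Fin m → Fin p.D) (s i : ℕ) : ℕ :=
  if h : 6 * s + i < m then (o ⟨6 * s + i, h⟩ : ℕ) else 0

/-- The numbers which are rounded with offset `i` of the stage. -/
noncomputable def numI (p : Par) (S : Sem) (d : SD) (o : ℕ → ℕ) (i a v x : ℕ) : ℝ :=
  if i = 0 then S.P d (fun _ => False) a v x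
  else if i = 1 then wr p p.n (st0 p S d o) (2 ^ p.JF) v x
  else if i = 2 then S.loss d (Z1 p S d o) x
  else if i = 3 then S.P d (Zs p S d o) a v x
  else if i = 4 then wr p p.n (st2 p S d o) (2 ^ p.JF) v x
  else wr p (4 * p.n) (fun _ => Xst p S d o) (2 ^ p.JN) (4 * v) (4 * x + 2 + a)

/-- They depend on the earlier offsets only. -/
lemma numI_congr {d : SD} {o o' : ℕ → ℕ} {i : ℕ} (hi : i < 6) (h : ∀ j < i, o j = o' j) :
    numI p S d o i = numI p S d o' i := by
  funext a v x
  unfold numI
  have hc : i = 0 ∨ i = 1 ∨ i = 2 ∨ i = 3 ∨ i = 4 ∨ i = 5 := by omega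
  rcases hc with rfl | rfl | rfl | rfl | rfl | rfl
  · simp
  · simp [st0_congr h]
  · simp [Z1_congr h]
  · simp [Zs_congr h]
  · simp [st2_congr h]
  · simp [Xst_congr h]

/-- Stage with data `d` has only safe roundings. -/
structure SafeO (p : Par) (S : Sem) (d : SD) (o : ℕ → ℕ) : Prop where
  k0 : ∀ a < p.r, ∀ v < p.n, ∀ x < p.n, ¬ OBad p (S.P d (fun _ => False) a v x) (o 0)
  k1 : ∀ v < p.n, ∀ x < p.n, ¬ OBad p (wr p p.n (st0 p S d o) (2 ^ p.JF) v x) (o 1)
  k2 : ∀ x < p.n, ¬ OBad p (S.loss d (Z1 p S d o) x) (o 2)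
  k3 : ∀ a < p.r, ∀ v < p.n, ∀ x < p.n, ¬ OBad p (S.P d (Zs p S d o) a v x) (o 3)
  k4 : ∀ v < p.n, ∀ x < p.n, ¬ OBad p (wr p p.n (st2 p S d o) (2 ^ p.JF) v x) (o 4)
  k5 : ∀ σ < 2, ∀ v < p.n, ∀ x < p.n,
    ¬ OBad p (wr p (4 * p.n) (fun _ => Xst p S d o) (2 ^ p.JN) (4 * v) (4 * x + 2 + σ)) (o 5)

/-- All stages below `Sn` have only safe roundings. -/
def GoodO (p : Par) (S : Sem) (cs : ℕ → Bool → ℕ) (Sn : ℕ) (o : ℕ → ℕ → ℕ) : Prop :=
  ∀ s < Sn, SafeO p S (data p S cs o s) (o s)

/-- The bad events of draw `i` at a stage. -/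
def BadI (p : Par) (S : Sem) (d : SD) (o : ℕ → ℕ) (i c : ℕ) : Prop :=
  ∃ a < p.r + 1, ∃ v < p.n, ∃ x < p.n, OBad p (numI p S d o i a v x) c

lemma safeO_of (hr : 1 ≤ p.r) {d : SD} {o : ℕ → ℕ} (h : ∀ i < 6, ¬ BadI p S d o i (o i)) :
    SafeO p S d o := by
  have hk : ∀ i < 6, ∀ a < p.r + 1, ∀ v < p.n, ∀ x < p.n,
      ¬ OBad p (numI p S d o i a v x) (o i) := by
    intro i hi a ha v hv x hx hb
    exact h i hi ⟨a, ha, v, hv, x, hx, hb⟩
  constructor
  · intro a ha v hv x hx
    have := hk 0 (by omega) a (by omega) v hv x hx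
    simpa [numI] using this
  · intro v hv x hx
    have := hk 1 (by omega) 0 (by omega) v hv x hx
    simpa [numI] using this
  · intro x hx
    have := hk 2 (by omega) 0 (by omega) x hx x hx
    simpa [numI] using this
  · intro a ha v hv x hx
    have := hk 3 (by omega) a (by omega) v hv x hx
    simpa [numI] using this
  · intro v hv x hx
    have := hk 4 (by omega) 0 (by omega) v hv x hx
    simpa [numI] using this
  · intro σ hσ v hv x hx
    have := hk 5 (by omega) σ (by omega) v hv x hx
    simpa [numI] using this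

lemma card_ex {D N M : ℕ} (R : ℕ → ℕ → Prop) (h : ∀ i < N, ((range D).filter (R i)).card ≤ M) :
    ((range D).filter fun c => ∃ i < N, R i c).card ≤ N * M := by
  have h1 : ((range D).filter fun c => ∃ i < N, R i c) ⊆
      (range N).biUnion fun i => (range D).filter (R i) := by
    intro c hc
    rw [Finset.mem_filter] at hc
    obtain ⟨hc1, i, hi, hR⟩ := hc
    rw [Finset.mem_biUnion]
    exact ⟨i, Finset.mem_range.2 hi, Finset.mem_filter.2 ⟨hc1, hR⟩⟩
  refine (Finset.card_le_card h1).trans ?_
  calc _ ≤ ∑ i ∈ range N, ((range D).filter (R i)).card := Finset.card_biUnion_le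
    _ ≤ ∑ _i ∈ range N, M := Finset.sum_le_sum fun i hi => h i (Finset.mem_range.1 hi)
    _ = _ := by rw [Finset.sum_const, Finset.card_range, smul_eq_mul]

lemma card_BadI (d : SD) (o : ℕ → ℕ) (i : ℕ) :
    ((range p.D).filter fun c => BadI p S d o i c).card ≤ (p.r + 1) * (p.n * (p.n * 2)) := by
  have e1 : ∀ a v, ((range p.D).filter fun c => ∃ x < p.n, OBad p (numI p S d o i a v x) c).card ≤
      p.n * 2 := by
    intro a v
    convert card_ex (D := p.D) (N := p.n) (M := 2)
      (fun x c => OBad p (numI p S d o i a v x) c) fun x _ => card_OBad _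
  have e2 : ∀ a, ((range p.D).filter fun c => ∃ v < p.n, ∃ x < p.n,
      OBad p (numI p S d o i a v x) c).card ≤ p.n * (p.n * 2) := by
    intro a
    convert card_ex (D := p.D) (N := p.n) (M := p.n * 2)
      (fun v c => ∃ x < p.n, OBad p (numI p S d o i a v x) c) fun v _ => by convert e1 a v
  unfold BadI
  convert card_ex (D := p.D) (N := p.r + 1) (M := p.n * (p.n * 2))
    (fun a c => ∃ v < p.n, ∃ x < p.n, OBad p (numI p S d o i a v x) c) fun a _ => by convert e2 a

/-- **Counting of the bad offsets.** -/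
theorem card_not_goodO (hr : 1 ≤ p.r) (S : Sem) (cs : ℕ → Bool → ℕ) (Sn : ℕ) :
    (Finset.card {o : Fin (6 * Sn) → Fin p.D | ¬ GoodO p S cs Sn (offs o)}) * p.D ≤
      6 * Sn * ((p.r + 1) * (p.n * (p.n * 2))) * p.D ^ (6 * Sn) := by
  set F : Fin (6 * Sn) → (Fin (6 * Sn) → Fin p.D) → Fin p.D → Prop := fun i o c =>
    BadI p S (data p S cs (offs o) (i / 6)) (offs o (i / 6)) (i % 6) c with hF
  have hoffs : ∀ (o o' : Fin (6 * Sn) → Fin p.D) (i : Fin (6 * Sn)), (∀ j < i, o j = o' j) →
      ∀ s k, 6 * s + k < (i : ℕ) → offs o s k = offs o' s k := by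
    intro o o' i h s k hk
    unfold offs
    have h1 : 6 * s + k < 6 * Sn := hk.trans i.2
    rw [dif_pos h1, dif_pos h1, h _ (by exact hk)]
  have h1 := card_dep ((p.r + 1) * (p.n * (p.n * 2))) F
    (by
      intro i o o' h c
      have hd : data p S cs (offs o) (i / 6) = data p S cs (offs o') (i / 6) :=
        data_congr fun s' hs' k hk => hoffs o o' i h s' k (by omega)
      simp only [hF]
      unfold BadI
      rw [hd, numI_congr (o' := offs o' (i / 6)) (by omega) fun j hj =>
        hoffs o o' i h _ _ (by omega)])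
    (by
      intro i o
      refine le_trans ?_ (card_BadI (S := S) (data p S cs (offs o) (i / 6))
        (offs o (i / 6)) (i % 6))
      apply Finset.card_le_card_of_injOn (fun c : Fin p.D => (c : ℕ))
      · intro c hc
        rw [Finset.mem_coe, Finset.mem_filter] at hc
        rw [Finset.mem_coe, Finset.mem_filter]
        exact ⟨Finset.mem_range.2 c.2, hc.2⟩
      · exact fun a _ b _ h => Fin.ext h)
  refine le_trans (Nat.mul_le_mul_right _ (Finset.card_le_card ?_)) h1
  intro o ho
  rw [Finset.mem_filter] at ho ⊢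
  refine ⟨Finset.mem_univ _, ?_⟩
  by_contra hcon
  push Not at hcon
  apply ho.2
  intro s hs
  refine safeO_of hr fun k hk hb => ?_
  refine hcon ⟨6 * s + k, by omega⟩ ?_
  have e1 : (6 * s + k) / 6 = s := by omega
  have e2 : (6 * s + k) % 6 = k := by omega
  have e3 : ((o ⟨6 * s + k, by omega⟩ : Fin p.D) : ℕ) = offs o s k := by
    unfold offs
    rw [dif_pos (show 6 * s + k < 6 * Sn by omega)]
  simp only [hF, e1, e2, e3]
  exact hb

end Vale.Agent.P313.NW.H126
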