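import Mathlib
import Vale.Agent.P313.NW.H126.Off
import Vale.Agent.P313.NW.H126.Maj
import Vale.Agent.P313.NW.BP.PhVal
import Vale.Agent.P313.H931.Num

/-!
# Good seeds (block C)

For good offsets and most seeds of the sampler, all majorities are the canonical values, at all
valid tapes.
-/

namespace Vale.Agent.P313.NW.H126

open Finset Vale.Agent.P313.NW.BP _root_.P313.H931
open scoped Classical

/-- a value which is taken more than half of the time is the majority -/
theorem maj_eq {lw c : ℕ} {g : ℕ → ℕ}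
    (h : lw + 1 < 2 * ((range (lw + 1)).filter fun i => g i = c).card) : maj lw g = c := by
  have hex : ∃ j ∈ range (lw + 1), g j = c := by
    by_contra hcon
    push Not at hcon
    have : ((range (lw + 1)).filter fun i => g i = c) = ∅ := by
      rw [Finset.filter_eq_empty_iff]
      exact fun {j} hj => hcon j hj
    rw [this, Finset.card_empty] at h
    omega
  obtain ⟨j, hj, hgj⟩ := hex
  have hP : ∃ j ≤ lw, lw + 1 < 2 * ((range (lw + 1)).filter fun i => g i = g j).card :=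
    ⟨j, by have := Finset.mem_range.1 hj; omega, by rw [hgj]; exact h⟩
  unfold maj
  rw [dif_pos (by convert hP)]
  have hP' : ∃ j ≤ lw, lw + 1 < 2 * ((range (lw + 1)).filter fun i => g i = g j).card := by
    convert hP
  obtain ⟨_, h2⟩ := Nat.find_spec hP'
  by_contra hne
  have hdis : Disjoint ((range (lw + 1)).filter fun i => g i = g (Nat.find hP'))
      ((range (lw + 1)).filter fun i => g i = c) := by
    rw [Finset.disjoint_filter]
    intro i _ h3 h4
    apply hne
    rw [← h4, h3]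
  have h5 := Finset.card_le_card (Finset.union_subset
    (Finset.filter_subset (fun i => g i = g (Nat.find hP')) (range (lw + 1)))
    (Finset.filter_subset (fun i => g i = c) (range (lw + 1))))
  rw [Finset.card_union_of_disjoint hdis, Finset.card_range] at h5
  omega

variable (p : Par2) (S : Sem) (T : TSem)

/-- the shift of the tape by a sample in the two notations -/
lemma shT_eq (hc0 : 0 < p.c0) (hL : p.L ≤ p.c0 * p.DC) (w : ℕ → ℕ) (j σ : ℕ) (t : Tp) :
    BP.shT p w j σ t = _root_.P313.H931.shT p.q p.L t (fun i => sdg p.q p.c0 p.Q p.DC w j σ i) := by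
  have hu : ∀ k, ptN p w j k = uco p.Q p.DC w k j := by
    intro k
    unfold ptN
    induction j with
    | zero => simp [uco]
    | succ j ih =>
      have h1 : uco p.Q p.DC w k (j + 1) = (uco p.Q p.DC w k j +
        w (2 * p.DC + 2 * j + 1) * pw p.Q (w (2 * p.DC + 2 * j)) k) % p.Q := rfl
      have hpw : ∀ x k, pw p.Q x k ≡ x ^ k [MOD p.Q] := by
        intro x k
        unfold pw
        induction k with
        | zero => simpa using Nat.mod_modEq 1 p.Q
        | succ k ih2 =>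
          rw [Function.iterate_succ_apply', pow_succ]
          exact (Nat.mod_modEq _ _).trans (ih2.mul_right x)
      rw [h1, Finset.sum_range_succ, ← add_assoc]
      have ih' : w k + ∑ i ∈ range j, w (2 * p.DC + 2 * i + 1) * w (2 * p.DC + 2 * i) ^ k ≡
          uco p.Q p.DC w k j [MOD p.Q] := by
        rw [← ih]
        exact (Nat.mod_modEq _ _).symm
      exact ih'.add ((hpw _ _).symm.mul_left _)
  funext i
  unfold BP.shT _root_.P313.H931.shT
  by_cases hi : i < p.L
  · rw [if_pos hi, if_pos hi]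
    congr 2
    have h1 : i / p.c0 < p.DC := by
      rw [Nat.div_lt_iff_lt_mul hc0, mul_comm]
      omega
    show dgN p w j σ i = sdg p.q p.c0 p.Q p.DC w j σ i
    unfold dgN sdg
    rw [if_pos h1, iterate_div]
    congr 2
    unfold lnN lco
    rw [hu, hu]
  · rw [if_neg hi, if_neg hi]

/-- `upN` is `up` of a quotient -/
theorem upN_eq {p : Par2} (hD : 0 < p.D) (hQ : 0 < p.Q) {H : ℕ} (hH : 0 < H) (o s : ℕ) :
    upN p o H s = up p.toPar o ((s : ℝ) / ((p.Q * H : ℕ) : ℝ)) := by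
  rw [up_ratio hD o s (p.Q * H) (Nat.mul_pos hQ hH)]
  unfold upN
  congr 2
  · ring
  · ring

/-- What is known about the quantities which are averaged: the means over all tapes and the
bounds. -/
structure MeanOK [NeZero p.q] (VD : SD → Prop) (Bf : ℕ) : Prop where
  mP : ∀ d, VD d → ∀ Z : ℕ → Prop, ∀ a < p.r, ∀ v < p.n, ∀ x < p.n,
    (∑ y : Fin p.L → ZMod p.q, (flow p T d Z a v x (tapeOf y) : ℝ)) =
      (p.q : ℝ) ^ p.L * ((p.q : ℝ) ^ d.c v * S.P d Z a v x)
  mL : ∀ d, VD d → ∀ Z : ℕ → Prop, ∀ x < p.n,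
    (∑ y : Fin p.L → ZMod p.q, (lossT p T d Z x (tapeOf y) : ℝ)) =
      (p.q : ℝ) ^ p.L * ((p.q : ℝ) ^ d.c x * S.loss d Z x)
  bP : ∀ d, VD d → ∀ Z : ℕ → Prop, ∀ a < p.r, ∀ v < p.n, ∀ x < p.n, ∀ t, TpOk p t →
    flow p T d Z a v x t ≤ Bf
  bL : ∀ d, VD d → ∀ Z : ℕ → Prop, ∀ x < p.n, ∀ t, TpOk p t → lossT p T d Z x t ≤ Bf

/-- The majorities and the estimates of the products of one stage are canonical at all valid
tapes. -/
structure GoodSt (w : ℕ → ℕ) (d : SD) (o : ℕ → ℕ) : Prop where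
  g0 : ∀ a < p.r, ∀ v < p.n, ∀ x < p.n, ∀ t, TpOk p t →
    maj p.lw (fun j => avgV p T w d (fun _ => False) (o 0) j a v x t) = P0 p.toPar S d o a v x
  g1 : ∀ x < p.n, ∀ t, TpOk p t →
    maj p.lw (fun j => avgL p T w d (Z1 p.toPar S d o) (o 2) j x t) = lossR p.toPar S d o x
  g2 : ∀ a < p.r, ∀ v < p.n, ∀ x < p.n, ∀ t, TpOk p t →
    maj p.lw (fun j => avgV p T w d (Zs p.toPar S d o) (o 3) j a v x t) =
      P2 p.toPar S d o a v x
  h0 : ∀ v < p.n, ∀ x < p.n,
    estW p w (o 1) p.n 4 p.JF (st0 p.toPar S d o) v x = G0 p.toPar S d o v x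
  h2 : ∀ v < p.n, ∀ x < p.n,
    estW p w (o 4) p.n 4 p.JF (st2 p.toPar S d o) v x = G2 p.toPar S d o v x
  hX : ∀ σ < 2, ∀ v < p.n, ∀ x < p.n,
    estW p w (o 5) (4 * p.n) p.RX p.JN (fun _ => Xst p.toPar S d o) (4 * v) (4 * x + 2 + σ) =
      Xp p.toPar S d o σ v x

/-- The majorities and the estimates of all stages are canonical at all valid tapes. -/
def GoodW (cs : ℕ → Bool → ℕ) (o : ℕ → ℕ → ℕ) (w : ℕ → ℕ) : Prop :=
  ∀ s < p.S, GoodSt p S T w (data p.toPar S cs o s) (o s)

/-- The row sums which the estimates of the products need. -/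
structure Rows (d : SD) (o : ℕ → ℕ) : Prop where
  f0 : ∀ a, ∀ v < p.n, ∑ x ∈ range p.n, fac0 p.toPar S d o a v x ≤ 4 * p.Th
  f2 : ∀ a, ∀ v < p.n, ∑ x ∈ range p.n, fac2 p.toPar S d o a v x ≤ 4 * p.Th
  fX : ∀ w < 4 * p.n, ∑ w' ∈ range (4 * p.n), Xst p.toPar S d o w w' ≤ p.RX * p.Th

/-- majority for one function of the tape -/
theorem maj_of_few {p : Par2} (hD : 0 < p.D) (hQ : 0 < p.Q) {k : ℕ} (hk : 2 * k ≤ p.lw + 2)
    {w : ℕ → ℕ} {f : Tp → ℕ} {H o : ℕ} (hH : 0 < H) {t : Tp} {m del : ℝ} (hm : 0 ≤ m)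
    (hdel : del * (p.Th * p.D) ≤ 1) (hs : ¬ OBad p.toPar m o)
    (hgood : ((range (p.lw + 1)).filter fun j =>
      del < |(∑ σ ∈ range p.Q, (f (BP.shT p w j σ t) : ℝ) / H) / p.Q - m|).card < k) :
    maj p.lw (fun j => upN p o H (sumJ p w j f t)) = up p.toPar o m := by
  have he : ∀ j, (∑ σ ∈ range p.Q, (f (BP.shT p w j σ t) : ℝ) / H) / p.Q =
      ((sumJ p w j f t : ℕ) : ℝ) / ((p.Q * H : ℕ) : ℝ) := by
    intro j
    unfold sumJ
    rw [← Finset.sum_div]
    push_cast
    rw [div_div, mul_comm (H : ℝ)]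
  simp_rw [he] at hgood
  apply maj_eq
  simp_rw [upN_eq hD hQ hH]
  exact most_up (p := p.toPar) hD (by omega) (fun j _ => by positivity) hm hdel hs hgood

end Vale.Agent.P313.NW.H126
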