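import Mathlib
import Vale.Agent.P313.NW.H126.Good
import Vale.Agent.P313.H638.N4.Cdf

/-!
# The estimates of the products (block C)

For most digits of the hash functions, the rounded averages of the walks are the rounded products
of the matrices.
-/

namespace Vale.Agent.P313.NW.H126

open Finset Vale.Agent.P313.NW.BP

/-! ### The walks in the two notations -/

lemma trw_eq (Q N RT : ℕ) (M : ℕ → ℕ → ℕ → ℕ) (i v y : ℕ) :
    trw Q N RT (M i) v y = N4.cdf Q RT N M i v y := by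
  unfold trw N4.cdf N4.cum
  split_ifs
  · congr 1
    ext x
    simp only [mem_filter, mul_comm Q, mul_comm y]
  · rfl

lemma blk_eq (Q : ℕ) (g : ℕ → ℕ) (i : ℕ) : ∀ J y, blk Q g J i y = N4.nlb Q g i J y
  | 0, _ => rfl
  | J + 1, y => by
    unfold blk N4.nlb
    exact blk_eq Q g i J _

lemma nlb_top (Q : ℕ) (g : ℕ → ℕ) {i J : ℕ} (hi : i < 2 ^ J) (y : ℕ) :
    ∀ k, N4.nlb Q g i (J + k) y = N4.nlb Q g i J y
  | 0 => rfl
  | k + 1 => by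
    have h1 : i / 2 ^ (J + k) = 0 :=
      Nat.div_eq_of_lt (hi.trans_le (Nat.pow_le_pow_right (by norm_num) (by omega)))
    have h2 : N4.nlb Q g i (J + (k + 1)) y = N4.nlb Q g i (J + k)
        (if i / 2 ^ (J + k) % 2 = 1 then (g (2 * (J + k)) * y + g (2 * (J + k) + 1)) % Q
          else y) := rfl
    rw [h2, h1, Nat.zero_mod, if_neg (by norm_num)]
    exact nlb_top Q g hi y k

lemma wlk_eq (Q N RT : ℕ) (g : ℕ → ℕ) {J J' : ℕ} (hJ : J ≤ J') (M : ℕ → ℕ → ℕ → ℕ) (v y : ℕ) :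
    ∀ t ≤ 2 ^ J, BP.wlk Q N RT g J M v y t =
      MW.wlk (N4.cdf Q RT N M) (fun j => N4.nlb Q g j J' y) 0 v t
  | 0, _ => rfl
  | t + 1, ht => by
    obtain ⟨k, rfl⟩ := Nat.exists_eq_add_of_le hJ
    unfold BP.wlk MW.wlk
    rw [trw_eq, wlk_eq Q N RT g hJ M v y t (by omega), blk_eq, nlb_top Q g (by omega) y k,
      Nat.zero_add]

lemma cntW_eq (Q N RT : ℕ) (g : ℕ → ℕ) {J J' : ℕ} (hJ : J ≤ J') (M : ℕ → ℕ → ℕ → ℕ)
    (v x : ℕ) : cntW Q N RT g J M v x = N4.nw Q J' g (N4.cdf Q RT N M) 0 (2 ^ J) v x := by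
  unfold cntW N4.nw
  congr 1
  ext y
  rw [mem_filter, mem_filter, wlk_eq Q N RT g hJ M v y _ le_rfl]

lemma wr_eq (p : Par) {N R : ℕ} (hR : 0 < R) (M : ℕ → ℕ → ℕ → ℕ) (u : ℕ) :
    ∀ t v, wr p N M t u v =
      (R : ℝ) ^ t * ((MW.prq N (fun i a b => (M i a b : ℚ) / ((R * p.Th : ℕ) : ℚ)) 0 t u v : ℚ) : ℝ)
  | 0, v => by
    unfold wr MW.prq
    split_ifs <;> simp
  | t + 1, v => by
    have hR' : (R : ℝ) ≠ 0 := by exact_mod_cast hR.ne'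
    unfold wr MW.prq
    rw [Rat.cast_sum, mul_sum]
    refine sum_congr rfl fun s _ => ?_
    rw [wr_eq p hR M u t s, Nat.zero_add]
    push_cast
    rcases Nat.eq_zero_or_pos p.Th with h | h
    · simp [h]
    · have hT : (p.Th : ℝ) ≠ 0 := by exact_mod_cast h.ne'
      field_simp
      ring

lemma wr_nonneg (p : Par) (N : ℕ) (M : ℕ → ℕ → ℕ → ℕ) (u : ℕ) : ∀ t v, 0 ≤ wr p N M t u v
  | 0, v => by
    unfold wr
    split_ifs <;> norm_num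
  | t + 1, v => by
    unfold wr
    exact sum_nonneg fun s _ => mul_nonneg (wr_nonneg p N M u t s) (by positivity)

/-! ### One product -/

/-- If the hash functions are good for the automaton, the estimate is canonical. -/
theorem estW_eq {p : Par2} (hD : 0 < p.D) (hQ : 0 < p.Q) (hTh : 0 < p.Th) {w : ℕ → ℕ}
    {o N R J J' : ℕ} (hR : 0 < R) (hJ : J ≤ J') {M : ℕ → ℕ → ℕ → ℕ}
    (hM : ∀ i, ∀ u < N, ∑ x ∈ range N, M i u x ≤ R * p.Th) {δ : ℚ}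
    (hw : N4.NOk p.Q J' N (N4.cdf p.Q (R * p.Th) N M) δ (hsh p w))
    (herr : ((R ^ 2 ^ J * (p.Th * p.D) : ℕ) : ℚ) * (δ + ((2 ^ J : ℕ) : ℚ) * (N / p.Q)) ≤ 1)
    {u v : ℕ} (hu : u < N) (hv : v < N) (hs : ¬ OBad p.toPar (wr p.toPar N M (2 ^ J) u v) o) :
    estW p w o N R J M u v = up p.toPar o (wr p.toPar N M (2 ^ J) u v) := by
  unfold estW
  rw [upN_eq hD hQ one_pos, mul_one]
  refine up_stable hD (wr_nonneg _ _ _ _ _ _) (by positivity) ?_ hs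
  have h1 := N4.nw_cdf hQ (Nat.mul_pos hR hTh) hM hw (i := 0) (t := 2 ^ J)
    (by rw [Nat.zero_add]; exact Nat.pow_le_pow_right (by norm_num) hJ) hu
  have h2 := (single_le_sum (f := fun v => |(N4.nw p.Q J' (hsh p w) (N4.cdf p.Q (R * p.Th) N M)
    0 (2 ^ J) u v : ℚ) / p.Q - MW.prq N (fun i a b => (M i a b : ℚ) / ((R * p.Th : ℕ) : ℚ)) 0
      (2 ^ J) u v|) (fun _ _ => abs_nonneg _) (mem_range.2 hv)).trans h1
  beta_reduce at h2
  rw [← cntW_eq p.Q N (R * p.Th) (hsh p w) hJ M u v] at h2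
  set c := cntW p.Q N (R * p.Th) (hsh p w) J M u v with hc
  set P := MW.prq N (fun i a b => (M i a b : ℚ) / ((R * p.Th : ℕ) : ℚ)) 0 (2 ^ J) u v with hP
  have e1 : (((R ^ 2 ^ J * c : ℕ) : ℝ) / (p.Q : ℝ)) - wr p.toPar N M (2 ^ J) u v =
      (R : ℝ) ^ 2 ^ J * (((c : ℚ) / p.Q - P : ℚ) : ℝ) := by
    rw [wr_eq p.toPar hR M u (2 ^ J) v, ← hP]
    push_cast
    ring
  rw [e1, abs_mul, abs_of_nonneg (by positivity : (0 : ℝ) ≤ (R : ℝ) ^ 2 ^ J)]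
  have h3 : ((R ^ 2 ^ J * (p.Th * p.D) : ℕ) : ℚ) * |(c : ℚ) / p.Q - P| ≤ 1 :=
    (mul_le_mul_of_nonneg_left h2 (by positivity)).trans herr
  have h4 : (((R ^ 2 ^ J * (p.Th * p.D) : ℕ) : ℚ) * |(c : ℚ) / p.Q - P| : ℚ) ≤ ((1 : ℚ) : ℝ) := by
    exact_mod_cast h3
  push_cast at h4 ⊢
  refine le_trans (le_of_eq ?_) h4
  ring

/-! ### All products -/

/-- The estimates of the products of one stage are canonical. -/
structure HashSt (p : Par2) (S : Sem) (w : ℕ → ℕ) (d : SD) (o : ℕ → ℕ) : Prop where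
  h0 : ∀ v < p.n, ∀ x < p.n,
    estW p w (o 1) p.n 4 p.JF (st0 p.toPar S d o) v x = G0 p.toPar S d o v x
  h2 : ∀ v < p.n, ∀ x < p.n,
    estW p w (o 4) p.n 4 p.JF (st2 p.toPar S d o) v x = G2 p.toPar S d o v x
  hX : ∀ σ < 2, ∀ v < p.n, ∀ x < p.n,
    estW p w (o 5) (4 * p.n) p.RX p.JN (fun _ => Xst p.toPar S d o) (4 * v) (4 * x + 2 + σ) =
      Xp p.toPar S d o σ v x

/-- The accuracy (inverse) of the averages of the walks. -/
def accG (p : Par2) (Bx : ℕ) : ℕ := 2 * Bx * 2 ^ p.JH * (4 * p.n + 1) * (p.Th * p.D)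

lemma err_ok {p : Par2} {Bx N A J : ℕ} (hN : N ≤ 4 * p.n) (hA : A ≤ Bx) (hJ : J ≤ p.JH)
    (hG : 0 < accG p Bx) (hGQ : accG p Bx ≤ p.Q) :
    ((A * (p.Th * p.D) : ℕ) : ℚ) * ((2 : ℚ) ^ p.JH * (((N : ℚ) + 1) * (1 / (accG p Bx : ℚ))) +
      ((2 ^ J : ℕ) : ℚ) * (N / p.Q)) ≤ 1 := by
  have hG' : (0 : ℚ) < accG p Bx := by exact_mod_cast hG
  have hGQ' : (accG p Bx : ℚ) ≤ p.Q := by exact_mod_cast hGQ
  have hQ' : (0 : ℚ) < p.Q := hG'.trans_le hGQ'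
  have hN' : (N : ℚ) ≤ 4 * p.n := by exact_mod_cast hN
  have hA' : ((A * (p.Th * p.D) : ℕ) : ℚ) ≤ ((Bx * (p.Th * p.D) : ℕ) : ℚ) := by
    exact_mod_cast Nat.mul_le_mul_right _ hA
  have hJ' : ((2 ^ J : ℕ) : ℚ) ≤ (2 : ℚ) ^ p.JH := by
    exact_mod_cast Nat.pow_le_pow_right (by norm_num) hJ
  have h1 : (2 : ℚ) ^ p.JH * (((N : ℚ) + 1) * (1 / (accG p Bx : ℚ))) ≤
      (2 : ℚ) ^ p.JH * ((4 * p.n + 1) / accG p Bx) := by
    rw [mul_one_div]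
    gcongr
  have h2 : ((2 ^ J : ℕ) : ℚ) * (N / p.Q) ≤ (2 : ℚ) ^ p.JH * ((4 * p.n + 1) / accG p Bx) := by
    refine mul_le_mul hJ' ?_ (by positivity) (by positivity)
    exact div_le_div₀ (by positivity) (by linarith) hG' hGQ'
  calc _ ≤ ((Bx * (p.Th * p.D) : ℕ) : ℚ) * ((2 : ℚ) ^ p.JH * ((4 * p.n + 1) / accG p Bx) +
        (2 : ℚ) ^ p.JH * ((4 * p.n + 1) / accG p Bx)) :=
        mul_le_mul hA' (add_le_add h1 h2) (by positivity) (by positivity)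
    _ = (accG p Bx : ℚ) / accG p Bx := by
        have e : (accG p Bx : ℚ) = 2 * Bx * 2 ^ p.JH * (4 * p.n + 1) * (p.Th * p.D) := by
          unfold accG
          push_cast
          ring
        rw [div_eq_mul_inv, div_eq_mul_inv]
        nth_rewrite 3 [e]
        push_cast
        ring
    _ = 1 := div_self hG'.ne'

open Classical in
/-- **Few digits of the hash functions are bad**, for fixed good offsets. -/
theorem card_bad_h {p : Par2} {S : Sem} [Fact p.Q.Prime] (hD : 0 < p.D) (hTh : 0 < p.Th)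
    {dd : ℕ → SD} {o : ℕ → ℕ → ℕ} (hrow : ∀ s < p.S, Rows p S (dd s) (o s))
    (hO : ∀ s < p.S, SafeO p.toPar S (dd s) (o s)) {Bx : ℕ}
    (hx1 : 4 ^ 2 ^ p.JF ≤ Bx) (hx2 : p.RX ^ 2 ^ p.JN ≤ Bx)
    (hN3 : (48 * p.S * p.JH + 1) * ((2 ^ p.JH + 1) ^ 2 * (4 * p.n + 1) ^ 2 *
      (2 * Bx * 2 ^ p.JH * (4 * p.n + 1) * (p.Th * p.D)) ^ 2) ≤ p.Q) :
    16 * #{om ∈ range (p.Q ^ (2 * p.JH)) | ¬ ∀ s < p.S, ∀ w : ℕ → ℕ,
      (hsh p w = N4.dg p.Q om) → HashSt p S w (dd s) (o s)} ≤ p.Q ^ (2 * p.JH) := by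
  have hQ : 0 < p.Q := (Fact.out : p.Q.Prime).pos
  have hRX : 0 < p.RX := by unfold Par2.RX; positivity
  have hBx : 0 < Bx := (Nat.pow_pos (by norm_num)).trans_le hx1
  set G := accG p Bx with hGd
  set R0 := 48 * p.S * p.JH + 1 with hR0
  have hG : 0 < G := by
    rw [hGd]
    unfold accG
    have := Nat.mul_pos hTh hD
    positivity
  have hN3' : R0 * ((2 ^ p.JH + 1) ^ 2 * (4 * p.n + 1) ^ 2 * G ^ 2) ≤ p.Q := hN3
  have hGQ : G ≤ p.Q := by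
    refine le_trans ?_ hN3'
    calc G ≤ G ^ 2 := Nat.le_self_pow (by norm_num) _
      _ ≤ R0 * ((2 ^ p.JH + 1) ^ 2 * (4 * p.n + 1) ^ 2) * G ^ 2 :=
          Nat.le_mul_of_pos_left _ (by positivity)
      _ = _ := by ring
  have hR : ∀ N ≤ 4 * p.n, (R0 : ℚ) * ((2 : ℚ) ^ p.JH + 1) ^ 2 * ((N : ℚ) + 1) ^ 2 ≤
      p.Q * (1 / (G : ℚ)) ^ 2 := by
    intro N hN
    have hG' : (0 : ℚ) < G := by exact_mod_cast hG
    have h1 : R0 * ((2 ^ p.JH + 1) ^ 2 * (N + 1) ^ 2 * G ^ 2) ≤ p.Q := by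
      refine le_trans ?_ hN3'
      gcongr
    have h2 : (R0 : ℚ) * (((2 : ℚ) ^ p.JH + 1) ^ 2 * ((N : ℚ) + 1) ^ 2 * (G : ℚ) ^ 2) ≤ p.Q := by
      exact_mod_cast h1
    rw [one_div, inv_pow, ← div_eq_mul_inv, le_div_iff₀ (by positivity)]
    refine le_trans (le_of_eq ?_) h2
    ring
  have hε : (0 : ℚ) < 1 / (G : ℚ) := by
    have hG' : (0 : ℚ) < G := by exact_mod_cast hG
    positivity
  -- the three families
  set T0 : ℕ → ℕ → ℕ → ℕ → ℕ := fun s =>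
    N4.cdf p.Q (4 * p.Th) p.n (st0 p.toPar S (dd s) (o s)) with hT0
  set T2 : ℕ → ℕ → ℕ → ℕ → ℕ := fun s =>
    N4.cdf p.Q (4 * p.Th) p.n (st2 p.toPar S (dd s) (o s)) with hT2
  set TX : ℕ → ℕ → ℕ → ℕ → ℕ := fun s =>
    N4.cdf p.Q (p.RX * p.Th) (4 * p.n) (fun _ => Xst p.toPar S (dd s) (o s)) with hTX
  have c0 := N4.card_not_nok (Q := p.Q) (range p.S) (T := T0) (N := p.n) (J := p.JH) (R := R0)
    hε (fun s i u x => N4.cdf_le _ _ _ _) (hR p.n (by omega))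
  have c2 := N4.card_not_nok (Q := p.Q) (range p.S) (T := T2) (N := p.n) (J := p.JH) (R := R0)
    hε (fun s i u x => N4.cdf_le _ _ _ _) (hR p.n (by omega))
  have cX := N4.card_not_nok (Q := p.Q) (range p.S) (T := TX) (N := 4 * p.n) (J := p.JH) (R := R0)
    hε (fun s i u x => N4.cdf_le _ _ _ _) (hR (4 * p.n) le_rfl)
  rw [card_range] at c0 c2 cX
  have hsub : #{om ∈ range (p.Q ^ (2 * p.JH)) | ¬ ∀ s < p.S, ∀ w : ℕ → ℕ,
      (hsh p w = N4.dg p.Q om) → HashSt p S w (dd s) (o s)} ≤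
      #{om ∈ range (p.Q ^ (2 * p.JH)) | ¬ ∀ a ∈ range p.S, N4.NOk p.Q p.JH p.n (T0 a)
        (2 ^ p.JH * (((p.n : ℚ) + 1) * (1 / (G : ℚ)))) (N4.dg p.Q om)} +
      #{om ∈ range (p.Q ^ (2 * p.JH)) | ¬ ∀ a ∈ range p.S, N4.NOk p.Q p.JH p.n (T2 a)
        (2 ^ p.JH * (((p.n : ℚ) + 1) * (1 / (G : ℚ)))) (N4.dg p.Q om)} +
      #{om ∈ range (p.Q ^ (2 * p.JH)) | ¬ ∀ a ∈ range p.S, N4.NOk p.Q p.JH (4 * p.n) (TX a)
        (2 ^ p.JH * ((((4 * p.n : ℕ) : ℚ) + 1) * (1 / (G : ℚ)))) (N4.dg p.Q om)} := by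
    refine le_trans (card_le_card ?_) ((card_union_le _ _).trans
      (Nat.add_le_add_right (card_union_le _ _) _))
    intro om hom
    rw [mem_filter] at hom
    rw [mem_union, mem_union, mem_filter, mem_filter, mem_filter]
    by_contra hcon
    push Not at hcon
    obtain ⟨⟨k0, k2⟩, kX⟩ := hcon
    have k0 := k0 hom.1
    have k2 := k2 hom.1
    have kX := kX hom.1
    apply hom.2
    intro s hs w hw
    have hs' := mem_range.2 hs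
    have JF_le : p.JF ≤ p.JH := le_max_left _ _
    have JN_le : p.JN ≤ p.JH := le_max_right _ _
    constructor
    · intro v hv x hx
      refine estW_eq hD hQ hTh (by norm_num) JF_le (fun i u hu => (hrow s hs).f0 _ u hu)
        (by rw [hw]; exact k0 s hs') ?_ hv hx ((hO s hs).k1 v hv x hx)
      exact err_ok (by omega) hx1 JF_le hG hGQ
    · intro v hv x hx
      refine estW_eq hD hQ hTh (by norm_num) JF_le (fun i u hu => (hrow s hs).f2 _ u hu)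
        (by rw [hw]; exact k2 s hs') ?_ hv hx ((hO s hs).k4 v hv x hx)
      exact err_ok (by omega) hx1 JF_le hG hGQ
    · intro σ hσ v hv x hx
      refine estW_eq hD hQ hTh hRX JN_le (fun i u hu => (hrow s hs).fX u hu)
        (by rw [hw]; exact kX s hs') ?_ (by omega) (by omega) ((hO s hs).k5 σ hσ v hv x hx)
      exact err_ok (by omega) hx2 JN_le hG hGQ
  have h1 : 16 * #{om ∈ range (p.Q ^ (2 * p.JH)) | ¬ ∀ s < p.S, ∀ w : ℕ → ℕ,
      (hsh p w = N4.dg p.Q om) → HashSt p S w (dd s) (o s)} * R0 ≤ R0 * p.Q ^ (2 * p.JH) := by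
    calc _ ≤ 16 * (_ + _ + _) * R0 := Nat.mul_le_mul_right _ (Nat.mul_le_mul_left _ hsub)
      _ = 16 * (_ * R0 + _ * R0 + _ * R0) := by ring
      _ ≤ 16 * (p.S * (p.JH * p.Q ^ (2 * p.JH)) + p.S * (p.JH * p.Q ^ (2 * p.JH)) +
          p.S * (p.JH * p.Q ^ (2 * p.JH))) :=
          Nat.mul_le_mul_left _ (Nat.add_le_add (Nat.add_le_add c0 c2) cX)
      _ = 48 * p.S * p.JH * p.Q ^ (2 * p.JH) := by ring
      _ ≤ R0 * p.Q ^ (2 * p.JH) := Nat.mul_le_mul_right _ (by omega)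
  rw [mul_comm R0] at h1
  exact Nat.le_of_mul_le_mul_right h1 (by omega)

end Vale.Agent.P313.NW.H126
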