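import Mathlib
import Vale.Agent.P313.NW.H126.Est

/-!
# Most seeds of the sampler are good, for fixed good offsets (block C)
-/

namespace Vale.Agent.P313.NW.H126

open Finset Vale.Agent.P313.NW.BP _root_.P313.H931
open scoped Classical

variable (p : Par2) (S : Sem) (T : TSem)

/-- The majorities of one stage are canonical at all valid tapes. -/
structure AvgSt (w : ℕ → ℕ) (d : SD) (o : ℕ → ℕ) : Prop where
  g0 : ∀ a < p.r, ∀ v < p.n, ∀ x < p.n, ∀ t, TpOk p t →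
    maj p.lw (fun j => avgV p T w d (fun _ => False) (o 0) j a v x t) = P0 p.toPar S d o a v x
  g1 : ∀ x < p.n, ∀ t, TpOk p t →
    maj p.lw (fun j => avgL p T w d (Z1 p.toPar S d o) (o 2) j x t) = lossR p.toPar S d o x
  g2 : ∀ a < p.r, ∀ v < p.n, ∀ x < p.n, ∀ t, TpOk p t →
    maj p.lw (fun j => avgV p T w d (Zs p.toPar S d o) (o 3) j a v x t) =
      P2 p.toPar S d o a v x

/-- The two parts of `GoodSt`. -/
theorem goodSt_of {p : Par2} {S : Sem} {T : TSem} {w : ℕ → ℕ} {d : SD} {o : ℕ → ℕ}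
    (h : AvgSt p S T w d o) (h' : HashSt p S w d o) : GoodSt p S T w d o :=
  ⟨h.g0, h.g1, h.g2, h'.h0, h'.h2, h'.hX⟩

/-- indices of the numbers which are estimated: stage, kind, level, two states -/
abbrev Ix (p : Par2) : Type := Fin p.S × Fin 3 × Fin p.r × Fin p.n × Fin p.n

/-- the sets which are avoided -/
def Zk (d : SD) (o : ℕ → ℕ) (k : ℕ) : ℕ → Prop :=
  if k = 0 then fun _ => False else if k = 1 then Z1 p.toPar S d o else Zs p.toPar S d o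

/-- the functions of the tape which are averaged -/
noncomputable def FI (dd : ℕ → SD) (o : ℕ → ℕ → ℕ) (i : Ix p) (t : Tp) : ℝ :=
  if (i.2.1 : ℕ) = 1 then
    (lossT p T (dd i.1) (Zk p S (dd i.1) (o i.1) 1) i.2.2.2.2 t : ℝ) /
      (p.q ^ (dd i.1).c i.2.2.2.2 : ℕ)
  else
    (flow p T (dd i.1) (Zk p S (dd i.1) (o i.1) i.2.1) i.2.2.1 i.2.2.2.1 i.2.2.2.2 t : ℝ)
      / (p.q ^ (dd i.1).c i.2.2.2.1 : ℕ)

/-- their means -/
noncomputable def MI (dd : ℕ → SD) (o : ℕ → ℕ → ℕ) (i : Ix p) : ℝ :=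
  if (i.2.1 : ℕ) = 1 then
    S.loss (dd i.1) (Zk p S (dd i.1) (o i.1) 1) i.2.2.2.2
  else
    S.P (dd i.1) (Zk p S (dd i.1) (o i.1) i.2.1) i.2.2.1 i.2.2.2.1 i.2.2.2.2

variable {p S T}

lemma mean_FI [NeZero p.q] {VD : SD → Prop} {Bf : ℕ} (hm : MeanOK p S T VD Bf) {dd : ℕ → SD}
    (hVD : ∀ s < p.S, VD (dd s)) (o : ℕ → ℕ → ℕ) (i : Ix p) :
    mean (fun y : Fin p.L → ZMod p.q => FI p S T dd o i (tapeOf y)) = MI p S dd o i := by
  have hq : (p.q : ℝ) ≠ 0 := by exact_mod_cast (NeZero.ne p.q)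
  have hcard : (Fintype.card (Fin p.L → ZMod p.q) : ℝ) = (p.q : ℝ) ^ p.L := by
    simp [ZMod.card]
  unfold mean FI MI
  rw [hcard]
  by_cases h : (i.2.1 : ℕ) = 1
  · simp only [h, if_true]
    rw [← Finset.sum_div, hm.mL _ (hVD _ i.1.2) _ _ i.2.2.2.2.2]
    push_cast
    field_simp
  · simp only [h, if_false]
    rw [← Finset.sum_div, hm.mP _ (hVD _ i.1.2) _ _ i.2.2.1.2 _ i.2.2.2.1.2 _ i.2.2.2.2.2]
    push_cast
    field_simp

lemma FI_nonneg (dd : ℕ → SD) (o : ℕ → ℕ → ℕ) (i : Ix p) (t : Tp) : 0 ≤ FI p S T dd o i t := by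
  unfold FI
  split_ifs <;> positivity

lemma MI_nonneg [NeZero p.q] {VD : SD → Prop} {Bf : ℕ} (hm : MeanOK p S T VD Bf) {dd : ℕ → SD}
    (hVD : ∀ s < p.S, VD (dd s)) (o : ℕ → ℕ → ℕ) (i : Ix p) : 0 ≤ MI p S dd o i := by
  rw [← mean_FI hm hVD]
  unfold mean
  exact div_nonneg (Finset.sum_nonneg fun y _ => FI_nonneg _ _ _ _) (by positivity)

lemma FI_le [NeZero p.q] {VD : SD → Prop} {Bf : ℕ} (hm : MeanOK p S T VD Bf) {dd : ℕ → SD}
    (hVD : ∀ s < p.S, VD (dd s)) (o : ℕ → ℕ → ℕ) (i : Ix p) (t : Tp) (ht : TpOk p t) :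
    FI p S T dd o i t ≤ Bf := by
  have hq : ∀ c : ℕ, (1 : ℝ) ≤ (p.q ^ c : ℕ) := by
    intro c
    exact_mod_cast Nat.one_le_pow _ _ (Nat.pos_of_ne_zero (NeZero.ne p.q))
  unfold FI
  split_ifs with h
  · refine (div_le_self (by positivity) (hq _)).trans ?_
    exact_mod_cast hm.bL _ (hVD _ i.1.2) _ _ i.2.2.2.2.2 t ht
  · refine (div_le_self (by positivity) (hq _)).trans ?_
    exact_mod_cast hm.bP _ (hVD _ i.1.2) _ _ i.2.2.1.2 _ i.2.2.2.1.2 _ i.2.2.2.2.2 t ht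

/-- if all functions are averaged well, the majorities are canonical -/
theorem avg_of [NeZero p.q] (hr : 0 < p.r) {VD : SD → Prop} {Bf : ℕ} (hm : MeanOK p S T VD Bf)
    (hD : 0 < p.D) (hQ : 0 < p.Q) {k : ℕ} (hk : 2 * k ≤ p.lw + 2)
    {cs : ℕ → Bool → ℕ} {o : ℕ → ℕ → ℕ} (hVD : ∀ s < p.S, VD (data p.toPar S cs o s))
    (hO : GoodO p.toPar S cs p.S o) {del : ℝ} (hdel : del * (p.Th * p.D) ≤ 1) {w : ℕ → ℕ}
    (h : ∀ i : Ix p, ∀ t, TpOk p t → ((range (p.lw + 1)).filter fun j =>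
      del < |(∑ σ ∈ range p.Q, FI p S T (data p.toPar S cs o) o i (BP.shT p w j σ t)) / p.Q -
        MI p S (data p.toPar S cs o) o i|).card < k) :
    ∀ s < p.S, AvgSt p S T w (data p.toPar S cs o s) (o s) := by
  intro s hs
  have hq : ∀ c : ℕ, 0 < p.q ^ c := fun c => Nat.pow_pos (Nat.pos_of_ne_zero (NeZero.ne p.q))
  have hP : ∀ kd : Fin 3, (kd : ℕ) ≠ 1 → ∀ a (ha : a < p.r) v (hv : v < p.n) x (hx : x < p.n) t,
      TpOk p t → ∀ of, ¬ OBad p.toPar (S.P (data p.toPar S cs o s)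
        (Zk p S (data p.toPar S cs o s) (o s) kd) a v x) of →
      maj p.lw (fun j => avgV p T w (data p.toPar S cs o s)
        (Zk p S (data p.toPar S cs o s) (o s) kd) of j a v x t) =
      up p.toPar of (S.P (data p.toPar S cs o s)
        (Zk p S (data p.toPar S cs o s) (o s) kd) a v x) := by
    intro kd hkd a ha v hv x hx t ht of hof
    have h1 := h (⟨s, hs⟩, kd, ⟨a, ha⟩, ⟨v, hv⟩, ⟨x, hx⟩) t ht
    have h2 := MI_nonneg hm hVD o (⟨s, hs⟩, kd, ⟨a, ha⟩, ⟨v, hv⟩, ⟨x, hx⟩)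
    simp only [FI, MI, hkd, if_false] at h1 h2
    exact maj_of_few hD hQ hk (hq _) h2 hdel hof h1
  constructor
  · intro a ha v hv x hx t ht
    exact hP 0 (by decide) a ha v hv x hx t ht _ ((hO s hs).k0 a ha v hv x hx)
  · intro x hx t ht
    have h1 := h (⟨s, hs⟩, 1, ⟨0, hr⟩, ⟨x, hx⟩, ⟨x, hx⟩) t ht
    have h2 := MI_nonneg hm hVD o (⟨s, hs⟩, 1, ⟨0, hr⟩, ⟨x, hx⟩, ⟨x, hx⟩)
    simp only [FI, MI, Fin.val_one, if_true] at h1 h2
    exact maj_of_few hD hQ hk (hq _) h2 hdel ((hO s hs).k2 x hx) h1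
  · intro a ha v hv x hx t ht
    exact hP 2 (by decide) a ha v hv x hx t ht _ ((hO s hs).k3 a ha v hv x hx)

/-! ### The sampler uses the first digits only -/

lemma ptN_congr {w w' : ℕ → ℕ} (h : ∀ m < 2 * p.DC + 2 * p.lw, w m = w' m) {j c : ℕ}
    (hj : j ≤ p.lw) (hc : c < 2 * p.DC) : ptN p w j c = ptN p w' j c := by
  unfold ptN
  rw [h c (by omega)]
  congr 2
  refine sum_congr rfl fun i hi => ?_
  rw [mem_range] at hi
  rw [h _ (by omega), h (2 * p.DC + 2 * i) (by omega)]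

lemma shT_congr (hc0 : 0 < p.c0) (hL : p.L ≤ p.c0 * p.DC) {w w' : ℕ → ℕ}
    (h : ∀ m < 2 * p.DC + 2 * p.lw, w m = w' m) {j : ℕ} (hj : j ≤ p.lw) (σ : ℕ) (t : Tp) :
    BP.shT p w j σ t = BP.shT p w' j σ t := by
  funext i
  unfold BP.shT
  by_cases hi : i < p.L
  · rw [if_pos hi, if_pos hi]
    have h1 : i / p.c0 < p.DC := by
      rw [Nat.div_lt_iff_lt_mul hc0, mul_comm]
      omega
    unfold dgN lnN
    rw [ptN_congr h hj (by omega), ptN_congr h hj (by omega)]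
  · rw [if_neg hi, if_neg hi]

/-- **most seeds of the sampler are good**, for fixed good offsets -/
theorem card_bad_w [NeZero p.q] [Fact p.Q.Prime] (hr : 0 < p.r) {VD : SD → Prop} {Bf : ℕ}
    (hm : MeanOK p S T VD Bf) (hD : 0 < p.D) {k : ℕ} (hk : 2 * k ≤ p.lw + 2)
    {cs : ℕ → Bool → ℕ} {o : ℕ → ℕ → ℕ} (hVD : ∀ s < p.S, VD (data p.toPar S cs o s))
    (hO : GoodO p.toPar S cs p.S o) {eps : ℝ} (heps : 0 < eps)
    (hdel : (eps + Bf * ((1 + (p.q : ℝ) ^ p.c0 / p.Q) ^ p.DC - 1)) * (p.Th * p.D) ≤ 1)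
    (hc0 : 0 < p.c0) (hL : p.L ≤ p.c0 * p.DC) (hDQ : 2 * p.DC ≤ p.Q) :
    (((range (p.Q ^ (2 * p.DC + 2 * p.lw))).filter fun ω =>
      ¬ ∀ w : ℕ → ℕ, (∀ m < 2 * p.DC + 2 * p.lw, w m = ω / p.Q ^ m % p.Q) →
        ∀ s < p.S, AvgSt p S T w (data p.toPar S cs o s) (o s)).card : ℝ) ≤
      (3 * p.S * (p.r * (p.n * p.n)) : ℕ) * (p.q : ℝ) ^ p.L *
        (2 ^ (p.lw + 1) * ((Bf : ℝ) ^ 2 / (eps ^ 2 * p.Q) + ((2 * p.DC : ℕ) : ℝ) / p.Q) ^ k) *
        (p.Q : ℝ) ^ (2 * p.DC + 2 * p.lw) := by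
  have hQ : 0 < p.Q := (Fact.out : p.Q.Prime).pos
  have hs := sampler_num (Q := p.Q) p.q p.c0 p.L p.DC p.lw k hc0 hL (by omega)
    (FI p S T (data p.toPar S cs o) o) (B := Bf) (eps := eps)
    (fun i τ _ => FI_nonneg _ _ _ _) (fun i τ hτ => FI_le hm hVD o i τ hτ) heps
    (fun ω => ¬ ∀ w : ℕ → ℕ, (∀ m < 2 * p.DC + 2 * p.lw, w m = ω / p.Q ^ m % p.Q) →
        ∀ s < p.S, AvgSt p S T w (data p.toPar S cs o s) (o s))
    (by
      intro ω hω
      by_contra hcon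
      push Not at hcon
      apply hω
      intro w hw
      refine avg_of hr hm hD hQ hk hVD hO hdel fun i t ht => ?_
      have h1 := hcon i t ht
      rw [mean_FI hm hVD] at h1
      refine lt_of_le_of_lt (card_le_card ?_) h1
      intro j hj
      rw [mem_filter] at hj ⊢
      refine ⟨hj.1, ?_⟩
      have hjl : j ≤ p.lw := by
        have := mem_range.1 hj.1
        omega
      have h2 := hj.2
      simp_rw [shT_congr hc0 hL hw hjl, shT_eq p hc0 hL] at h2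
      exact h2)
  have e1 : (Fintype.card (Ix p) : ℝ) = (3 * p.S * (p.r * (p.n * p.n)) : ℕ) := by
    simp only [Ix, Fintype.card_prod, Fintype.card_fin]
    congr 1
    ring
  rw [e1] at hs
  rw [two_mul p.DC] at hs ⊢
  exact hs

end Vale.Agent.P313.NW.H126
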