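import Vale.Agent.P313.NW.BP.Phv

/-!
# Seeds

A seed is one number `sd < D ^ (6 S) * Q ^ nw`: the offsets are the digits of `sd % D ^ (6 S)`, the
seed of the sampler and the hash functions are given by the digits of `sd / D ^ (6 S)`.
-/

namespace Vale.Agent.P313.NW.H126

open Finset Vale.Agent.P313.NW.BP
open scoped Classical

/-- offsets from a number -/
def offN (p : Par2) (x s i : ℕ) : ℕ := x / p.D ^ (6 * s + i) % p.D

/-- offsets of a seed -/
def oSd (p : Par2) (sd : ℕ) : ℕ → ℕ → ℕ := offN p (sd % p.D ^ (6 * p.S))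

/-- digits of the sampler part of a seed -/
def wSd (p : Par2) (sd m : ℕ) : ℕ := sd / p.D ^ (6 * p.S) / p.Q ^ m % p.Q

/-- number of seeds -/
def nSd (p : Par2) : ℕ := p.D ^ (6 * p.S) * p.Q ^ p.nw

lemma oSd_lt {p : Par2} (hD : 0 < p.D) (sd s i : ℕ) : oSd p sd s i < p.D := Nat.mod_lt _ hD

lemma wSd_lt {p : Par2} (hQ : 0 < p.Q) (sd m : ℕ) : wSd p sd m < p.Q := Nat.mod_lt _ hQ

end Vale.Agent.P313.NW.H126
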