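import Mathlib
import Vale.Agent.P313.NW.H126.CountW
import Vale.Agent.P313.NW.H126.Seed

/-!
# Most seeds are good (block C)

A seed is one number `sd < D ^ (6 S) * Q ^ nw`: the offsets are the digits of
`sd % D ^ (6 S)`, the seed of the sampler and the hash functions are given by the digits of
`sd / D ^ (6 S)`.
-/

namespace Vale.Agent.P313.NW.H126

open Finset Vale.Agent.P313.NW.BP
open scoped Classical

variable {p : Par2} {S : Sem} {T : TSem}

/-- the bad numbers of offsets -/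
theorem card_bad_o (hD : 0 < p.D) (hr : 1 ≤ p.r) (S : Sem) (cs : ℕ → Bool → ℕ) :
    (((range (p.D ^ (6 * p.S))).filter fun x => ¬ GoodO p.toPar S cs p.S (offN p x)).card) * p.D ≤
      6 * p.S * ((p.r + 1) * (p.n * (p.n * 2))) * p.D ^ (6 * p.S) := by
  refine le_trans (Nat.mul_le_mul_right _ ?_) (card_not_goodO (p := p.toPar) hr S cs p.S)
  apply Finset.card_le_card_of_injOn
    (fun x => if h : x < p.D ^ (6 * p.S) then finFunctionFinEquiv.symm ⟨x, h⟩ else fun _ => ⟨0, hD⟩)
  · intro x hx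
    rw [Finset.mem_coe, Finset.mem_filter, Finset.mem_range] at hx
    rw [Finset.mem_coe, Finset.mem_filter]
    refine ⟨Finset.mem_univ _, ?_⟩
    have e : offs (p := p.toPar) (if h : x < p.D ^ (6 * p.S) then
        finFunctionFinEquiv.symm ⟨x, h⟩ else fun _ => ⟨0, hD⟩) = offN p x := by
      funext s i
      unfold offs offN
      rw [dif_pos hx.1]
      split_ifs with h
      · rw [finFunctionFinEquiv_symm_apply_val]
      · have h1 : x < p.D ^ (6 * s + i) :=
          lt_of_lt_of_le hx.1 (Nat.pow_le_pow_right hD (by omega))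
        rw [Nat.div_eq_of_lt h1, Nat.zero_mod]
    rw [e]
    exact hx.2
  · intro x hx y hy hxy
    rw [Finset.mem_coe, Finset.mem_filter, Finset.mem_range] at hx hy
    simp only [hx.1, hy.1, dif_pos] at hxy
    exact congrArg Fin.val (finFunctionFinEquiv.symm.injective hxy)

/-- a seed is good: all majorities and all estimates of products are canonical -/
def GoodSd (p : Par2) (S : Sem) (T : TSem) (cs : ℕ → Bool → ℕ) (sd : ℕ) : Prop :=
  GoodW p S T cs (oSd p sd) (wSd p sd)

/-- Union bound for the two parts of a number. -/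
lemma card_two_parts {A B : ℕ} (hA : 0 < A) {P1 P2 P : ℕ → Prop}
    (h1 : 16 * #{x ∈ range A | P1 x} ≤ A) (h2 : 16 * #{x ∈ range B | P2 x} ≤ B)
    (h : ∀ ω < A * B, P ω → P1 (ω % A) ∨ P2 (ω / A)) :
    8 * #{ω ∈ range (A * B) | P ω} ≤ A * B := by
  have h3 : #{ω ∈ range (A * B) | P ω} ≤
      #({x ∈ range A | P1 x} ×ˢ range B) + #(range A ×ˢ {x ∈ range B | P2 x}) := by
    refine le_trans ?_ (card_union_le _ _)
    apply Finset.card_le_card_of_injOn (fun ω => (ω % A, ω / A))
    · intro ω hω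
      rw [Finset.mem_coe, Finset.mem_filter, Finset.mem_range] at hω
      have e1 : ω % A < A := Nat.mod_lt _ hA
      have e2 : ω / A < B := by
        rw [Nat.div_lt_iff_lt_mul hA, mul_comm]
        exact hω.1
      rw [Finset.mem_coe, Finset.mem_union, Finset.mem_product, Finset.mem_product,
        Finset.mem_filter, Finset.mem_filter, Finset.mem_range, Finset.mem_range]
      rcases h ω hω.1 hω.2 with h4 | h4
      · exact Or.inl ⟨⟨e1, h4⟩, e2⟩
      · exact Or.inr ⟨e1, ⟨e2, h4⟩⟩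
    · intro x _ y _ hxy
      rw [Prod.mk.injEq] at hxy
      rw [← Nat.div_add_mod x A, ← Nat.div_add_mod y A, hxy.1, hxy.2]
  rw [card_product, card_product, card_range, card_range] at h3
  have h4 : 16 * (#{x ∈ range A | P1 x} * B) ≤ A * B := by
    rw [← mul_assoc]
    exact Nat.mul_le_mul_right _ h1
  have h5 : 16 * (A * #{x ∈ range B | P2 x}) ≤ A * B := by
    calc 16 * (A * #{x ∈ range B | P2 x}) = A * (16 * #{x ∈ range B | P2 x}) := by ring
      _ ≤ A * B := Nat.mul_le_mul_left _ h2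
  omega

/-- **most seeds are good** -/
theorem card_bad_sd [NeZero p.q] [Fact p.Q.Prime] (hr : 1 ≤ p.r) {VD : SD → Prop} {Bf : ℕ}
    (hm : MeanOK p S T VD Bf) (hD : 0 < p.D) (hTh : 0 < p.Th) {k : ℕ} (hk : 2 * k ≤ p.lw + 2)
    {cs : ℕ → Bool → ℕ}
    (hVD : ∀ o : ℕ → ℕ → ℕ, (∀ s i, o s i < p.D) → ∀ s < p.S, VD (data p.toPar S cs o s))
    (hrow : ∀ o : ℕ → ℕ → ℕ, (∀ s i, o s i < p.D) →
      ∀ s < p.S, Rows p S (data p.toPar S cs o s) (o s))
    {eps : ℝ} (heps : 0 < eps)
    (hdel : (eps + Bf * ((1 + (p.q : ℝ) ^ p.c0 / p.Q) ^ p.DC - 1)) * (p.Th * p.D) ≤ 1)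
    (hc0 : 0 < p.c0) (hL : p.L ≤ p.c0 * p.DC) (hDQ : 2 * p.DC ≤ p.Q)
    (hN1 : 8 * (6 * p.S * ((p.r + 1) * (p.n * (p.n * 2)))) ≤ p.D)
    (hN2 : 16 * ((3 * p.S * (p.r * (p.n * p.n)) : ℕ) * (p.q : ℝ) ^ p.L *
        (2 ^ (p.lw + 1) * ((Bf : ℝ) ^ 2 / (eps ^ 2 * p.Q) + ((2 * p.DC : ℕ) : ℝ) / p.Q) ^ k)) ≤ 1)
    {Bx : ℕ} (hx1 : 4 ^ 2 ^ p.JF ≤ Bx) (hx2 : p.RX ^ 2 ^ p.JN ≤ Bx)
    (hN3 : (48 * p.S * p.JH + 1) * ((2 ^ p.JH + 1) ^ 2 * (4 * p.n + 1) ^ 2 *
      (2 * Bx * 2 ^ p.JH * (4 * p.n + 1) * (p.Th * p.D)) ^ 2) ≤ p.Q) :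
    4 * ((range (nSd p)).filter fun sd => ¬ GoodSd p S T cs sd).card ≤ nSd p := by
  have hQ : 0 < p.Q := (Fact.out : p.Q.Prime).pos
  set A := p.D ^ (6 * p.S) with hA
  set M1 := p.Q ^ (2 * p.DC + 2 * p.lw) with hM1
  set M2 := p.Q ^ (2 * p.JH) with hM2
  set M := p.Q ^ p.nw with hM
  have hMM : M = M1 * M2 := by
    rw [hM, hM1, hM2, ← pow_add]
    rfl
  have hApos : 0 < A := Nat.pow_pos hD
  have hM1pos : 0 < M1 := Nat.pow_pos hQ
  have hM2pos : 0 < M2 := Nat.pow_pos hQ
  -- offsets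
  have h1 : 8 * ((range A).filter fun x => ¬ GoodO p.toPar S cs p.S (offN p x)).card ≤ A := by
    have h2 := card_bad_o (p := p) hD hr S cs
    have h3 : 8 * ((range A).filter fun x => ¬ GoodO p.toPar S cs p.S (offN p x)).card * p.D ≤
        p.D * A := by
      calc _ = 8 * (((range A).filter fun x => ¬ GoodO p.toPar S cs p.S (offN p x)).card * p.D) := by
            ring
        _ ≤ 8 * (6 * p.S * ((p.r + 1) * (p.n * (p.n * 2))) * A) := Nat.mul_le_mul_left _ h2
        _ = 8 * (6 * p.S * ((p.r + 1) * (p.n * (p.n * 2)))) * A := by ring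
        _ ≤ _ := Nat.mul_le_mul_right _ hN1
    rw [mul_comm p.D A] at h3
    exact Nat.le_of_mul_le_mul_right h3 hD
  -- the sampler and the hash functions, for fixed good offsets
  have h4 : ∀ x, GoodO p.toPar S cs p.S (offN p x) →
      8 * ((range M).filter fun ω =>
        ¬ GoodW p S T cs (offN p x) (fun m => ω / p.Q ^ m % p.Q)).card ≤ M := by
    intro x hx
    have ho : ∀ s i, offN p x s i < p.D := fun s i => Nat.mod_lt _ hD
    have h5 := card_bad_w hr hm hD hk (hVD (offN p x) ho) hx heps hdel hc0 hL hDQ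
    have h6 : (16 : ℝ) * ((range M1).filter fun ω =>
        ¬ ∀ w : ℕ → ℕ, (∀ m < 2 * p.DC + 2 * p.lw, w m = ω / p.Q ^ m % p.Q) →
        ∀ s < p.S, AvgSt p S T w (data p.toPar S cs (offN p x) s) (offN p x s)).card ≤ M1 := by
      have hMr : (M1 : ℝ) = (p.Q : ℝ) ^ (2 * p.DC + 2 * p.lw) := by rw [hM1]; push_cast; ring
      calc _ ≤ 16 * ((3 * p.S * (p.r * (p.n * p.n)) : ℕ) * (p.q : ℝ) ^ p.L *
            (2 ^ (p.lw + 1) * ((Bf : ℝ) ^ 2 / (eps ^ 2 * p.Q) + ((2 * p.DC : ℕ) : ℝ) / p.Q) ^ k) *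
            (p.Q : ℝ) ^ (2 * p.DC + 2 * p.lw)) := mul_le_mul_of_nonneg_left h5 (by norm_num)
        _ = 16 * ((3 * p.S * (p.r * (p.n * p.n)) : ℕ) * (p.q : ℝ) ^ p.L *
            (2 ^ (p.lw + 1) * ((Bf : ℝ) ^ 2 / (eps ^ 2 * p.Q) + ((2 * p.DC : ℕ) : ℝ) / p.Q) ^ k)) *
            M1 := by rw [hMr]; ring
        _ ≤ 1 * M1 := mul_le_mul_of_nonneg_right hN2 (by positivity)
        _ = M1 := one_mul _
    have h7 := card_bad_h hD hTh (hrow (offN p x) ho) hx hx1 hx2 hN3
    rw [hMM]
    have h6' : 16 * ((range M1).filter fun ω =>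
        ¬ ∀ w : ℕ → ℕ, (∀ m < 2 * p.DC + 2 * p.lw, w m = ω / p.Q ^ m % p.Q) →
        ∀ s < p.S, AvgSt p S T w (data p.toPar S cs (offN p x) s) (offN p x s)).card ≤ M1 := by
      exact_mod_cast h6
    have key := card_two_parts (P1 := fun ω => ¬ ∀ w : ℕ → ℕ,
      (∀ m < 2 * p.DC + 2 * p.lw, w m = ω / p.Q ^ m % p.Q) →
        ∀ s < p.S, AvgSt p S T w (data p.toPar S cs (offN p x) s) (offN p x s))
      (P2 := fun om => ¬ ∀ s < p.S, ∀ w : ℕ → ℕ, (hsh p w = N4.dg p.Q om) →
        HashSt p S w (data p.toPar S cs (offN p x) s) (offN p x s))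
      (P := fun ω => ¬ GoodW p S T cs (offN p x) (fun m => ω / p.Q ^ m % p.Q))
      hM1pos (by convert h6') (by convert h7)
    refine le_trans (le_of_eq (by congr!)) (key ?_)
    intro ω _ hω
    by_contra hcon
    push Not at hcon
    obtain ⟨ha, hh⟩ := hcon
    apply hω
    intro s hs
    refine goodSt_of (ha _ (fun m hm => ?_) s hs) (hh s hs _ ?_)
    · exact (N4.dg_mod (Q := p.Q) hm).symm
    · funext m
      unfold hsh N4.dg
      rw [hM1, Nat.div_div_eq_div_mul, ← pow_add]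
  -- pairs
  have h7 : ((range (nSd p)).filter fun sd => ¬ GoodSd p S T cs sd).card ≤
      (((range A).filter fun x => ¬ GoodO p.toPar S cs p.S (offN p x)) ×ˢ (range M)).card +
      ((range A).sum fun x => if GoodO p.toPar S cs p.S (offN p x) then
        ((range M).filter fun ω => ¬ GoodW p S T cs (offN p x)
          (fun m => ω / p.Q ^ m % p.Q)).card else 0) := by
    have h8 : ((range (nSd p)).filter fun sd => ¬ GoodSd p S T cs sd).card ≤
        ((((range A).filter fun x => ¬ GoodO p.toPar S cs p.S (offN p x)) ×ˢ (range M)) ∪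
          ((range A).biUnion fun x => if GoodO p.toPar S cs p.S (offN p x) then
            ((range M).filter fun ω => ¬ GoodW p S T cs (offN p x)
              (fun m => ω / p.Q ^ m % p.Q)).image (fun ω => (x, ω)) else ∅)).card := by
      apply Finset.card_le_card_of_injOn (fun sd => (sd % A, sd / A))
      · intro sd hsd
        rw [Finset.mem_coe, Finset.mem_filter, Finset.mem_range] at hsd
        have e1 : sd % A < A := Nat.mod_lt _ hApos
        have e2 : sd / A < M := by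
          rw [Nat.div_lt_iff_lt_mul hApos, mul_comm]
          exact hsd.1
        rw [Finset.mem_coe, Finset.mem_union, Finset.mem_product, Finset.mem_filter,
          Finset.mem_biUnion]
        by_cases hg : GoodO p.toPar S cs p.S (offN p (sd % A))
        · right
          refine ⟨sd % A, Finset.mem_range.2 e1, ?_⟩
          rw [if_pos hg, Finset.mem_image]
          refine ⟨sd / A, ?_, rfl⟩
          rw [Finset.mem_filter]
          exact ⟨Finset.mem_range.2 e2, hsd.2⟩
        · exact Or.inl ⟨⟨Finset.mem_range.2 e1, hg⟩, Finset.mem_range.2 e2⟩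
      · intro x _ y _ hxy
        rw [Prod.mk.injEq] at hxy
        rw [← Nat.div_add_mod x A, ← Nat.div_add_mod y A, hxy.1, hxy.2]
    refine h8.trans ((Finset.card_union_le _ _).trans ?_)
    refine Nat.add_le_add_left (Finset.card_biUnion_le.trans (Finset.sum_le_sum fun x _ => ?_)) _
    split_ifs
    · exact Finset.card_image_le
    · simp
  have h9 : 8 * ((range A).sum fun x => if GoodO p.toPar S cs p.S (offN p x) then
        ((range M).filter fun ω => ¬ GoodW p S T cs (offN p x)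
          (fun m => ω / p.Q ^ m % p.Q)).card else 0) ≤ A * M := by
    rw [Finset.mul_sum]
    calc _ ≤ ∑ _x ∈ range A, M := by
          refine Finset.sum_le_sum fun x _ => ?_
          split_ifs with hg
          · exact h4 x hg
          · simp
      _ = _ := by rw [Finset.sum_const, Finset.card_range, smul_eq_mul]
  have h10 : 8 * (((range A).filter fun x => ¬ GoodO p.toPar S cs p.S (offN p x)) ×ˢ
      (range M)).card ≤ A * M := by
    rw [Finset.card_product, Finset.card_range, ← mul_assoc]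
    exact Nat.mul_le_mul_right _ h1
  have hN : nSd p = A * M := rfl
  omega

end Vale.Agent.P313.NW.H126
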